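import Vale.Agent.P032.H61.GenSt
import Vale.Agent.P032.S5.H80.Ray

/-!
# P032: history bits (`an exact letter has occurred') as bits of closed sets of times

Take `D b q := closure (OC U T z l)` for one more index `b` (and one `q` for every exact letter `l` that matters) in
`H892.GermC` / `H61.gen_states`.  The bit `A` of `(b, m)` says: the exact letter `l` has occurred in the window `m`
since `u1`.

* `hist_jump` : a new bit `A` at the time `u` shows in the letter just after `u + m`,
* `hist_left`, `hist_right` : the letters just before / just after `u + m` show in the bits,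
* `hist_start` : the bit at the start is the letter just after `u1 + m`,
* `hist_sector` : if the letter occurs anywhere on the circle, then the bit `S` of some window holds,
* `exists_oc`, `dp_oc` : a two-pair centre has an exact letter of each pair.
-/

open Set Filter Topology Metric

noncomputable section

namespace Vale.Agent.P032.H491

open Vale.Agent.P032.Six Vale.Agent.P032.Words Vale.Agent.P032.S5.H767 Vale.Agent.P032.H892
  Vale.Agent.P032.H61 Vale.Agent.P032.Six

variable {U : Fin 6 → Set ℂ} {T : ℂ → Set (Fin 6)} {z : ℂ} {B : Type} {D : B → Fin 6 → Set ℝ} {l : L6}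

/-- the times of an exact letter are periodic -/
theorem oc_per {v : ℝ} (n : ℤ) (h : v ∈ OC U T z l) : v + 6 * n ∈ OC U T z l := by
  obtain ⟨h1, h2, h3, h4, h5⟩ := h
  refine ⟨h1, h2, ?_, h4, ?_⟩
  · rw [pt_per]; exact h3
  · rw [pt_per]; exact h5

section
variable (h : Irr U T) {b : B} {q : Fin 6} (hD : D b q = closure (OC U T z l)) {u1 u : ℝ} {m : Fin 6}
include h hD

/-- **The bit `A` jumps only with the letter.** -/
theorem hist_jump (C : Cn U T z) (h1 : u1 < u) (hA : ¬ cAl D u1 u b m q) (hA' : cAr D u1 u b m q) :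
    CR U T z (u + m.val) = some l := by
  have hO := oc_open (z := z) h l
  have hmem : u + m.val ∈ closure (OC U T z l) := by
    rcases (cA_step h1 b m q).1 hA' with h2 | h2
    · exact absurd h2 hA
    · rwa [hD] at h2
  have hno : ∀ v, u1 + m.val < v → v < u + m.val → v ∉ OC U T z l := by
    intro v h2 h3 h4
    exact hA ⟨v, by rw [hD]; exact subset_closure h4, h2, h3⟩
  have hlt : u1 + m.val < u + m.val := by linarith
  have hnot : u + m.val ∉ OC U T z l := by
    intro h2
    have h3 : ∀ᶠ v in 𝓝[<] (u + m.val), v ∈ OC U T z l :=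
      mem_nhdsWithin_of_mem_nhds (hO.mem_nhds h2)
    obtain ⟨v, h4, h5⟩ := (h3.and (Ioo_mem_nhdsLT hlt)).exists
    exact hno v h5.1 h5.2 h4
  refine C.cr_eq ?_
  rw [mem_closure_iff_frequently] at hmem
  have h6 : ∀ᶠ v in 𝓝 (u + m.val), v ∈ OC U T z l → u + m.val < v := by
    filter_upwards [Ioi_mem_nhds hlt] with v hv hvO
    rcases lt_trichotomy v (u + m.val) with h7 | h7 | h7
    · exact absurd hvO (hno v hv h7)
    · exact absurd (h7 ▸ hvO) hnot
    · exact h7
  rw [frequently_nhdsWithin_iff]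
  exact (hmem.and_eventually h6).mono fun v hv => ⟨hv.1, hv.2 hv.1⟩

omit h in
/-- the letter just before `u + m` is in the bit `A` -/
theorem hist_left (h1 : u1 < u) (hc : CL U T z (u + m.val) = some l) : cAl D u1 u b m q := by
  obtain ⟨v, h2, h3⟩ := ((cl_some hc).and (Ioo_mem_nhdsLT
    (show u1 + (m.val : ℝ) < u + m.val by linarith))).exists
  exact ⟨v, by rw [hD]; exact subset_closure h2, h3⟩

omit h in
/-- the letter just after `u + m` is in the bit `A` after `u` -/
theorem hist_right (h1 : u1 < u) (hc : CR U T z (u + m.val) = some l) : cAr D u1 u b m q := by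
  refine ⟨u + m.val, ?_, by linarith, le_refl _⟩
  rw [hD, mem_closure_iff_frequently]
  exact (cr_some hc).frequently.filter_mono nhdsWithin_le_nhds

omit h in
/-- the bit at the start -/
theorem hist_start (C : Cn U T z) : cR D u1 b m q ↔ CR U T z (u1 + m.val) = some l := by
  constructor
  · intro h1
    have h1 : ∃ᶠ v in 𝓝[>] (u1 + m.val), v ∈ D b q := h1
    refine C.cr_eq ?_
    rw [hD] at h1
    rw [frequently_nhdsWithin_iff] at h1 ⊢
    rw [frequently_iff] at h1 ⊢
    intro N hN
    obtain ⟨N', hN', hNo, hx⟩ := _root_.mem_nhds_iff.1 hN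
    obtain ⟨v, hv, h2, h3⟩ := h1 (hNo.mem_nhds hx)
    obtain ⟨w, h4, h5⟩ := mem_closure_iff.1 h2 (N' ∩ Ioi (u1 + m.val)) (hNo.inter isOpen_Ioi) ⟨hv, h3⟩
    exact ⟨w, hN' h4.1, h5, h4.2⟩
  · intro h1
    have h2 : ∃ᶠ v in 𝓝[>] (u1 + m.val), v ∈ D b q := by
      rw [hD]
      exact ((cr_some h1).mono fun v hv => subset_closure hv).frequently
    exact h2

/-- **The letter occurs somewhere: the bit `S` of a window holds.** -/
theorem hist_sector {v : ℝ} (hv : v ∈ OC U T z l) : ∃ m : Fin 6, cS D u1 b m q := by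
  have hO := oc_open (z := z) h l
  -- a representative in the period `(u1, u1 + 6)` off the class of `u1`
  obtain ⟨w, hw, hwn⟩ : ∃ w ∈ OC U T z l, ∀ k : ℤ, w ≠ u1 + k := by
    by_contra hcon
    push Not at hcon
    obtain ⟨e, he, hs⟩ := Metric.isOpen_iff.1 hO v hv
    obtain ⟨k, hk⟩ := hcon v hv
    set d := min (e / 2) (1 / 2) with hd
    have hd0 : 0 < d := lt_min (by linarith) (by norm_num)
    have h2 : v + d ∈ OC U T z l := hs (by
      rw [mem_ball, Real.dist_eq, add_sub_cancel_left, abs_of_pos hd0]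
      exact (min_le_left _ _).trans_lt (by linarith))
    obtain ⟨k', hk'⟩ := hcon _ h2
    have h3 : ((k' - k : ℤ) : ℝ) = d := by push_cast; linarith
    have h4 : 0 < ((k' - k : ℤ) : ℝ) := by rw [h3]; exact hd0
    have h5 : ((k' - k : ℤ) : ℝ) < 1 := by
      rw [h3]; exact (min_le_right _ _).trans_lt (by norm_num)
    have h6 : 0 < k' - k := by exact_mod_cast h4
    have h7 : k' - k < 1 := by exact_mod_cast h5
    omega
  set n : ℤ := ⌊(w - u1) / 6⌋ with hn
  set x := w - 6 * n with hx
  have hx1 : u1 ≤ x := by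
    have := Int.floor_le ((w - u1) / 6)
    rw [← hn] at this
    rw [hx]; linarith
  have hx2 : x < u1 + 6 := by
    have := Int.lt_floor_add_one ((w - u1) / 6)
    rw [← hn] at this
    rw [hx]; linarith
  have hxO : x ∈ OC U T z l := by
    have := oc_per (-n) hw
    rw [hx]
    convert this using 1
    push_cast; ring
  set k : ℤ := ⌊x - u1⌋ with hk
  have hk1 := Int.floor_le (x - u1)
  have hk2 := Int.lt_floor_add_one (x - u1)
  rw [← hk] at hk1 hk2
  have hk0 : 0 ≤ k := Int.floor_nonneg.2 (by linarith)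
  have hk6 : k < 6 := by
    have : (k : ℝ) < 6 := by linarith
    exact_mod_cast this
  have hne : x ≠ u1 + k := by
    intro h3
    refine hwn (k + 6 * n) ?_
    push_cast
    rw [hx] at h3
    linarith
  refine ⟨⟨k.toNat, by omega⟩, x, by rw [hD]; exact subset_closure hxO, ?_, ?_⟩
  · have e : (((⟨k.toNat, by omega⟩ : Fin 6).val : ℕ) : ℝ) = (k : ℝ) := by
      show ((k.toNat : ℕ) : ℝ) = (k : ℝ)
      have : ((k.toNat : ℤ)) = k := Int.toNat_of_nonneg hk0
      exact_mod_cast this
    rw [e]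
    exact lt_of_le_of_ne (by linarith) fun h4 => hne h4.symm
  · have e : (((⟨k.toNat, by omega⟩ : Fin 6).val : ℕ) : ℝ) = (k : ℝ) := by
      show ((k.toNat : ℕ) : ℝ) = (k : ℝ)
      have : ((k.toNat : ℤ)) = k := Int.toNat_of_nonneg hk0
      exact_mod_cast this
    rw [e]
    linarith

omit h in
/-- the other direction: a bit `S` comes from a time of the letter in the open window -/
theorem of_sector (hS : cS D u1 b m q) : ∃ v ∈ Ioo (u1 + m.val) (u1 + m.val + 1), v ∈ OC U T z l := by
  obtain ⟨x, hx, h1, h2⟩ := hS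
  rw [hD] at hx
  obtain ⟨w, h3, h4⟩ := mem_closure_iff.1 hx (Ioo (u1 + m.val) (u1 + m.val + 1)) isOpen_Ioo ⟨h1, h2⟩
  exact ⟨w, h3, h4⟩

end

theorem exists_time {y : ℂ} (hy : dist y z = 1) : ∃ u, pt z u = y := by
  obtain ⟨t, ht⟩ := exists_cis (u := y - z) (by rw [← dist_eq_norm]; exact hy)
  refine ⟨t / (Real.pi / 3), ?_⟩
  unfold pt
  rw [div_mul_cancel₀ _ (by positivity), ← ht]
  ring

/-- an exact point of the circle -/
theorem exists_oc (C : Cn U T z) {p : ℂ} {i j : Fin 6} (hp : dist p z = 1) (hT : T p = {i, j})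
    (hij : i ≠ j) (hi : i ∈ T z) (hj : j ∈ T z) :
    ∃ v, v ∈ OC U T z (i, j) ∨ v ∈ OC U T z (j, i) := by
  obtain ⟨v, rfl⟩ := exists_time hp
  refine ⟨v, ?_⟩
  rcases C.irr.sides_of_sided (dist_pt z v) hT.le (C.irr.mx.sided_of_ct (C.ct i hi))
    (C.irr.mx.sided_of_ct (C.ct j hj)) with h2 | h2
  · exact Or.inl ⟨hi, hj, hT, hij, h2⟩
  · exact Or.inr ⟨hj, hi, by rw [hT, pair_comm], hij.symm, h2⟩

/-- **A two-pair centre shows both pairs.** -/
theorem dp_oc (C : Cn U T z) {a b c d : Fin 6} (hz : DPt T z a b c d) :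
    (∃ v, v ∈ OC U T z (a, b) ∨ v ∈ OC U T z (b, a)) ∧
      ∃ v, v ∈ OC U T z (c, d) ∨ v ∈ OC U T z (d, c) := by
  obtain ⟨p, hp⟩ := hz.arc1
  obtain ⟨p', hp'⟩ := hz.arc2
  exact ⟨exists_oc C hp.1 (hp.2.self_of_nhdsWithin hp.1) hz.ab (by rw [hz.pal]; simp)
      (by rw [hz.pal]; simp),
    exists_oc C hp'.1 (hp'.2.self_of_nhdsWithin hp'.1) hz.cd (by rw [hz.pal]; simp)
      (by rw [hz.pal]; simp)⟩

end Vale.Agent.P032.H491
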